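import Mathlib
import Crest.Agent.R213.Defs

-- ▼ part R213/PI310
section

/-!
# Row 213: parametric integrals of smooth functions on convex sets (with boundary)

`PI α β γ δ w G p = ∫ r in 0..1, w r * G (α r + β r * p.1, γ r + δ r * p.2)`.
If `K` is convex with unique differentiability, the affine maps preserve `K`, `|β|,|δ| ≤ 1`, and `G` is
`C^∞` on `K`, then so is `PI ... G`, and the partial derivatives are `PI ... (β w) G_1`,
`PI ... (δ w) G_2`.
-/

set_option autoImplicit false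

open Set MeasureTheory Filter Topology intervalIntegral

noncomputable section

namespace Crest.Agent.R213.ParInt

/-- the parametric integral -/
def PI (α β γ δ w : ℝ → ℝ) (G : ℝ × ℝ → ℝ) (p : ℝ × ℝ) : ℝ :=
  ∫ r in (0 : ℝ)..1, w r * G (α r + β r * p.1, γ r + δ r * p.2)

variable {K : Set (ℝ × ℝ)} {α β γ δ w : ℝ → ℝ} {G : ℝ × ℝ → ℝ}

/-- hypotheses on the family of affine maps -/
structure Fam (K : Set (ℝ × ℝ)) (α β γ δ : ℝ → ℝ) : Prop where
  hα : ContinuousOn α (Icc 0 1)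
  hβ : ContinuousOn β (Icc 0 1)
  hγ : ContinuousOn γ (Icc 0 1)
  hδ : ContinuousOn δ (Icc 0 1)
  β1 : ∀ r ∈ Icc (0 : ℝ) 1, |β r| ≤ 1
  δ1 : ∀ r ∈ Icc (0 : ℝ) 1, |δ r| ≤ 1
  maps : ∀ r ∈ Icc (0 : ℝ) 1, ∀ p ∈ K, (α r + β r * p.1, γ r + δ r * p.2) ∈ K

theorem Fam.cont (h : Fam K α β γ δ) (p : ℝ × ℝ) :
    ContinuousOn (fun r => ((α r + β r * p.1, γ r + δ r * p.2) : ℝ × ℝ)) (Icc 0 1) :=
  (h.hα.add (h.hβ.mul continuousOn_const)).prodMk (h.hγ.add (h.hδ.mul continuousOn_const))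

theorem Fam.cont_comp {X : Type*} [TopologicalSpace X] {g : ℝ × ℝ → X} (h : Fam K α β γ δ)
    (hg : ContinuousOn g K) {p : ℝ × ℝ} (hp : p ∈ K) :
    ContinuousOn (fun r => g (α r + β r * p.1, γ r + δ r * p.2)) (Icc 0 1) :=
  hg.comp (h.cont p) (fun r hr => h.maps r hr p hp)

theorem Fam.integrable (h : Fam K α β γ δ) (hw : ContinuousOn w (Icc 0 1))
    (hG : ContinuousOn G K) {p : ℝ × ℝ} (hp : p ∈ K) :
    IntervalIntegrable (fun r => w r * G (α r + β r * p.1, γ r + δ r * p.2)) volume 0 1 := by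
  apply ContinuousOn.intervalIntegrable
  rw [uIcc_of_le zero_le_one]
  exact hw.mul (h.cont_comp hG hp)

/-- uniform continuity near a compact subset of `K` -/
theorem unif_near_compact {X Y : Type*} [PseudoMetricSpace X] [PseudoMetricSpace Y] {K C : Set X}
    {g : X → Y} (hg : ContinuousOn g K) (hC : IsCompact C) (hCK : C ⊆ K) {ε : ℝ} (hε : 0 < ε) :
    ∃ δ > 0, ∀ x ∈ C, ∀ y ∈ K, dist x y < δ → dist (g x) (g y) < ε := by
  have h1 : Continuous (K.domRestrict g) := continuousOn_iff_continuous_domRestrict.1 hg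
  have hC' : IsCompact ((Subtype.val : K → X) ⁻¹' C) := by
    rw [Subtype.isCompact_iff]
    rw [Subtype.image_preimage_coe, inter_eq_self_of_subset_right hCK]
    exact hC
  have h2 := hC'.uniformContinuousAt_of_continuousAt (f := K.domRestrict g)
    (fun a _ => h1.continuousAt) (Metric.dist_mem_uniformity hε)
  obtain ⟨δ, hδ, h3⟩ := Metric.mem_uniformity_dist.1 h2
  refine ⟨δ, hδ, fun x hx y hy hxy => ?_⟩
  exact h3 (a := ⟨x, hCK hx⟩) (b := ⟨y, hy⟩) hxy hx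

/-- derivative of the parametric integral -/
theorem hasFDerivWithinAt_PI (hK : Convex ℝ K) (h : Fam K α β γ δ)
    (hw : ContinuousOn w (Icc 0 1)) {G' : ℝ × ℝ → (ℝ × ℝ →L[ℝ] ℝ)}
    (hG : ∀ p ∈ K, HasFDerivWithinAt G (G' p) K p) (hG' : ContinuousOn G' K)
    {p : ℝ × ℝ} (hp : p ∈ K) :
    HasFDerivWithinAt (PI α β γ δ w G)
      (PI α β γ δ (fun r => β r * w r) (fun q => G' q (1, 0)) p • ContinuousLinearMap.fst ℝ ℝ ℝ +
        PI α β γ δ (fun r => δ r * w r) (fun q => G' q (0, 1)) p •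
          ContinuousLinearMap.snd ℝ ℝ ℝ) K p := by
  have hGc : ContinuousOn G K := fun q hq => (hG q hq).continuousWithinAt
  -- bound of the weight
  obtain ⟨M, hM⟩ := (isCompact_Icc (a := (0 : ℝ)) (b := 1)).exists_bound_of_continuousOn hw
  have hM0 : 0 ≤ M := (norm_nonneg _).trans (hM 0 (by simp))
  rw [hasFDerivWithinAt_iff_isLittleO, Asymptotics.isLittleO_iff]
  intro ε hε
  have hε' : 0 < ε / (M + 1) := by positivity
  -- the compact segment
  set φ : ℝ → ℝ × ℝ := fun r => (α r + β r * p.1, γ r + δ r * p.2) with hφ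
  have hCc : IsCompact (φ '' Icc 0 1) := isCompact_Icc.image_of_continuousOn (h.cont p)
  have hCK : φ '' Icc 0 1 ⊆ K := by
    rintro _ ⟨r, hr, rfl⟩; exact h.maps r hr p hp
  obtain ⟨η, hη, hunif⟩ := unif_near_compact hG' hCc hCK hε'
  have hev : ∀ᶠ p' in 𝓝[K] p, p' ∈ K ∧ dist p' p < η :=
    (eventually_mem_nhdsWithin).and
      (mem_nhdsWithin_of_mem_nhds (Metric.ball_mem_nhds p hη))
  filter_upwards [hev] with p' hp'
  obtain ⟨hp'K, hdist⟩ := hp'
  -- pointwise estimate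
  have key : ∀ r ∈ Icc (0 : ℝ) 1,
      |G (α r + β r * p'.1, γ r + δ r * p'.2) - G (φ r) -
        (β r * (p'.1 - p.1) * G' (φ r) (1, 0) + δ r * (p'.2 - p.2) * G' (φ r) (0, 1))| ≤
        ε / (M + 1) * ‖p' - p‖ := by
    intro r hr
    set q := φ r with hq
    set q' : ℝ × ℝ := (α r + β r * p'.1, γ r + δ r * p'.2) with hq'
    have hqK : q ∈ K := h.maps r hr p hp
    have hq'K : q' ∈ K := h.maps r hr p' hp'K
    have hsub : q' - q = (β r * (p'.1 - p.1), δ r * (p'.2 - p.2)) := by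
      rw [hq', hq, hφ]; ext <;> simp <;> ring
    have hnorm : ‖q' - q‖ ≤ ‖p' - p‖ := by
      rw [hsub, Prod.norm_def, Prod.norm_def]
      simp only [Prod.fst_sub, Prod.snd_sub, norm_mul]
      refine max_le_max ?_ ?_
      · calc ‖β r‖ * ‖p'.1 - p.1‖ ≤ 1 * ‖p'.1 - p.1‖ :=
              mul_le_mul_of_nonneg_right (h.β1 r hr) (norm_nonneg _)
          _ = _ := one_mul _
      · calc ‖δ r‖ * ‖p'.2 - p.2‖ ≤ 1 * ‖p'.2 - p.2‖ :=
              mul_le_mul_of_nonneg_right (h.δ1 r hr) (norm_nonneg _)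
          _ = _ := one_mul _
    have hd : dist q' q < η := by
      rw [dist_eq_norm]; exact hnorm.trans_lt (by rwa [← dist_eq_norm])
    have hconv : Convex ℝ (K ∩ Metric.ball q η) := hK.inter (convex_ball q η)
    have hmv := Convex.norm_image_sub_le_of_norm_hasFDerivWithin_le' (𝕜 := ℝ) (f := G) (f' := G')
      (φ := G' q) (s := K ∩ Metric.ball q η) (C := ε / (M + 1)) (x := q) (y := q')
      (fun x hx => (hG x hx.1).mono inter_subset_left) (fun x hx => ?_) hconv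
      ⟨hqK, Metric.mem_ball_self hη⟩ ⟨hq'K, hd⟩
    · have e1 : G' q (q' - q) =
          β r * (p'.1 - p.1) * G' q (1, 0) + δ r * (p'.2 - p.2) * G' q (0, 1) := by
        rw [hsub]
        have : ((β r * (p'.1 - p.1), δ r * (p'.2 - p.2)) : ℝ × ℝ) =
            (β r * (p'.1 - p.1)) • ((1, 0) : ℝ × ℝ) + (δ r * (p'.2 - p.2)) • ((0, 1) : ℝ × ℝ) := by
          ext <;> simp
        rw [this, map_add, map_smul, map_smul]
        simp
      rw [← e1, ← Real.norm_eq_abs]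
      refine hmv.trans ?_
      exact mul_le_mul_of_nonneg_left hnorm hε'.le
    · have := hunif q ⟨r, hr, rfl⟩ x hx.1 (by rw [dist_comm]; exact hx.2)
      rw [dist_comm, dist_eq_norm] at this
      exact this.le
  -- integrate
  have hint1 := h.integrable hw hGc hp
  have hint2 := h.integrable hw hGc hp'K
  have hG1 : ContinuousOn (fun q => G' q (1, 0)) K := hG'.clm_apply continuousOn_const
  have hG2 : ContinuousOn (fun q => G' q (0, 1)) K := hG'.clm_apply continuousOn_const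
  have hint3 := h.integrable (w := fun r => β r * w r) (h.hβ.mul hw) hG1 hp
  have hint4 := h.integrable (w := fun r => δ r * w r) (h.hδ.mul hw) hG2 hp
  have e : PI α β γ δ w G p' - PI α β γ δ w G p -
      (PI α β γ δ (fun r => β r * w r) (fun q => G' q (1, 0)) p • ContinuousLinearMap.fst ℝ ℝ ℝ +
        PI α β γ δ (fun r => δ r * w r) (fun q => G' q (0, 1)) p •
          ContinuousLinearMap.snd ℝ ℝ ℝ) (p' - p) =
      ∫ r in (0 : ℝ)..1, w r * (G (α r + β r * p'.1, γ r + δ r * p'.2) - G (φ r) -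
        (β r * (p'.1 - p.1) * G' (φ r) (1, 0) + δ r * (p'.2 - p.2) * G' (φ r) (0, 1))) := by
    have e2 : (PI α β γ δ (fun r => β r * w r) (fun q => G' q (1, 0)) p •
        ContinuousLinearMap.fst ℝ ℝ ℝ +
        PI α β γ δ (fun r => δ r * w r) (fun q => G' q (0, 1)) p •
          ContinuousLinearMap.snd ℝ ℝ ℝ) (p' - p) =
        PI α β γ δ (fun r => β r * w r) (fun q => G' q (1, 0)) p * (p'.1 - p.1) +
        PI α β γ δ (fun r => δ r * w r) (fun q => G' q (0, 1)) p * (p'.2 - p.2) := by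
      simp
    rw [e2]
    unfold PI
    rw [← intervalIntegral.integral_sub hint2 hint1, ← intervalIntegral.integral_mul_const,
      ← intervalIntegral.integral_mul_const,
      ← intervalIntegral.integral_add (hint3.mul_const _) (hint4.mul_const _),
      ← intervalIntegral.integral_sub (hint2.sub hint1)
        ((hint3.mul_const _).add (hint4.mul_const _))]
    refine intervalIntegral.integral_congr (fun r _ => ?_)
    simp only [hφ]
    ring
  rw [e]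
  have hb : ∀ r ∈ uIoc (0 : ℝ) 1,
      ‖w r * (G (α r + β r * p'.1, γ r + δ r * p'.2) - G (φ r) -
        (β r * (p'.1 - p.1) * G' (φ r) (1, 0) + δ r * (p'.2 - p.2) * G' (φ r) (0, 1)))‖ ≤
      ε * ‖p' - p‖ := by
    intro r hr
    rw [uIoc_of_le zero_le_one] at hr
    have hr' : r ∈ Icc (0 : ℝ) 1 := ⟨hr.1.le, hr.2⟩
    rw [norm_mul, Real.norm_eq_abs (_ - _ - _)]
    calc ‖w r‖ * _ ≤ M * (ε / (M + 1) * ‖p' - p‖) :=
          mul_le_mul (hM r hr') (key r hr') (abs_nonneg _) hM0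
      _ = (M / (M + 1)) * (ε * ‖p' - p‖) := by ring
      _ ≤ 1 * (ε * ‖p' - p‖) := by
          refine mul_le_mul_of_nonneg_right ?_ (by positivity)
          rw [div_le_one (by positivity)]; linarith
      _ = _ := one_mul _
  have := intervalIntegral.norm_integral_le_of_norm_le_const hb
  simpa using this

/-- **smoothness of parametric integrals** -/
theorem contDiffOn_PI (hK : Convex ℝ K) (hKu : UniqueDiffOn ℝ K) (h : Fam K α β γ δ) :
    ∀ (n : ℕ) (w : ℝ → ℝ) (G : ℝ × ℝ → ℝ), ContinuousOn w (Icc 0 1) →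
      ContDiffOn ℝ (⊤ : ℕ∞) G K → ContDiffOn ℝ n (PI α β γ δ w G) K := by
  have hd : ∀ (w : ℝ → ℝ) (G : ℝ × ℝ → ℝ), ContinuousOn w (Icc 0 1) →
      ContDiffOn ℝ (⊤ : ℕ∞) G K → ∀ p ∈ K, HasFDerivWithinAt (PI α β γ δ w G)
      (PI α β γ δ (fun r => β r * w r) (fun q => fderivWithin ℝ G K q (1, 0)) p •
        ContinuousLinearMap.fst ℝ ℝ ℝ +
        PI α β γ δ (fun r => δ r * w r) (fun q => fderivWithin ℝ G K q (0, 1)) p •
          ContinuousLinearMap.snd ℝ ℝ ℝ) K p := by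
    intro w G hw hG p hp
    refine hasFDerivWithinAt_PI hK h hw (G' := fderivWithin ℝ G K) (fun q hq => ?_) ?_ hp
    · exact (hG.differentiableOn (by simp) q hq).hasFDerivWithinAt
    · exact hG.continuousOn_fderivWithin hKu (by simp)
  intro n
  induction n with
  | zero =>
    intro w G hw hG
    rw [Nat.cast_zero, contDiffOn_zero]
    exact fun p hp => (hd w G hw hG p hp).continuousWithinAt
  | succ n ih =>
    intro w G hw hG
    rw [Nat.cast_succ, contDiffOn_succ_iff_fderivWithin hKu]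
    refine ⟨fun p hp => (hd w G hw hG p hp).differentiableWithinAt, by simp, ?_⟩
    have hG' : ContDiffOn ℝ (⊤ : ℕ∞) (fderivWithin ℝ G K) K :=
      hG.fderivWithin hKu (by simp)
    have h1 := ih (fun r => β r * w r) (fun q => fderivWithin ℝ G K q (1, 0)) (h.hβ.mul hw)
      (hG'.clm_apply contDiffOn_const)
    have h2 := ih (fun r => δ r * w r) (fun q => fderivWithin ℝ G K q (0, 1)) (h.hδ.mul hw)
      (hG'.clm_apply contDiffOn_const)
    have h3 : ContDiffOn ℝ n (fun p => PI α β γ δ (fun r => β r * w r)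
        (fun q => fderivWithin ℝ G K q (1, 0)) p • ContinuousLinearMap.fst ℝ ℝ ℝ +
        PI α β γ δ (fun r => δ r * w r) (fun q => fderivWithin ℝ G K q (0, 1)) p •
          ContinuousLinearMap.snd ℝ ℝ ℝ) K :=
      (h1.smul contDiffOn_const).add (h2.smul contDiffOn_const)
    exact h3.congr fun p hp => (hd w G hw hG p hp).fderivWithin (hKu p hp)

end Crest.Agent.R213.ParInt
end
end

-- ▼ part R213/J310

/-!
# Row 213, J310: integrals depending on parameters, Hadamard division, `Kint`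

Everything for functions `u t x` on `s × [0,L]` (`s` convex, `UniqueDiffOn`; in most lemmas open).
Namespace `Crest.Agent.R213.J310`.
-/

set_option autoImplicit false

open Set MeasureTheory Filter Topology

noncomputable section

namespace Crest.Agent.R213.J310

open ParInt

variable {s : Set ℝ} {L : ℝ} {u v F : ℝ → ℝ → ℝ}

theorem convex_prod (hs : Convex ℝ s) : Convex ℝ (s ×ˢ Icc 0 L) := hs.prod (convex_Icc 0 L)

theorem uniq_prod (hs : UniqueDiffOn ℝ s) (hL : 0 < L) : UniqueDiffOn ℝ (s ×ˢ Icc 0 L) :=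
  hs.prod (uniqueDiffOn_Icc hL)

/-! ### slices and partial derivatives -/


theorem sm_slice_x {t : ℝ} (hu : Sm s L u) (ht : t ∈ s) :
    ContDiffOn ℝ (⊤ : ℕ∞) (fun x => u t x) (Icc 0 L) :=
  ContDiffOn.comp (g := fun p : ℝ × ℝ => u p.1 p.2) (f := fun x => (t, x)) (t := s ×ˢ Icc 0 L) hu
    (contDiff_const.prodMk contDiff_id).contDiffOn (fun _ hx => ⟨ht, hx⟩)

theorem sm_slice_t {x : ℝ} (hu : Sm s L u) (hx : x ∈ Icc 0 L) :
    ContDiffOn ℝ (⊤ : ℕ∞) (fun t => u t x) s :=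
  ContDiffOn.comp (g := fun p : ℝ × ℝ => u p.1 p.2) (f := fun t => (t, x)) (t := s ×ˢ Icc 0 L) hu
    (contDiff_id.prodMk contDiff_const).contDiffOn (fun _ ht => ⟨ht, hx⟩)

theorem sm_cont_x {t : ℝ} (hu : Sm s L u) (ht : t ∈ s) : ContinuousOn (u t) (Icc 0 L) :=
  (sm_slice_x hu ht).continuousOn

theorem hasFDeriv (hu : Sm s L u) {p : ℝ × ℝ} (hp : p ∈ s ×ˢ Icc 0 L) :
    HasFDerivWithinAt (fun p : ℝ × ℝ => u p.1 p.2)
      (fderivWithin ℝ (fun p : ℝ × ℝ => u p.1 p.2) (s ×ˢ Icc 0 L) p) (s ×ˢ Icc 0 L) p :=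
  (hu.differentiableOn (by simp) p hp).hasFDerivWithinAt

theorem hasDeriv_x' (hu : Sm s L u) {t x : ℝ} (ht : t ∈ s) (hx : x ∈ Icc 0 L) :
    HasDerivWithinAt (u t)
      (fderivWithin ℝ (fun p : ℝ × ℝ => u p.1 p.2) (s ×ˢ Icc 0 L) (t, x) (0, 1)) (Icc 0 L) x := by
  have h1 := hasFDeriv hu (p := (t, x)) ⟨ht, hx⟩
  have h2 : HasDerivWithinAt (fun y : ℝ => ((t, y) : ℝ × ℝ)) (0, 1) (Icc 0 L) x :=
    (hasDerivWithinAt_const _ _ _).prodMk (hasDerivWithinAt_id _ _)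
  exact h1.comp_hasDerivWithinAt (t := s ×ˢ Icc 0 L) x h2 (fun y hy => ⟨ht, hy⟩)

theorem hasDeriv_t' (hu : Sm s L u) {t x : ℝ} (ht : t ∈ s) (hx : x ∈ Icc 0 L) :
    HasDerivWithinAt (fun r => u r x)
      (fderivWithin ℝ (fun p : ℝ × ℝ => u p.1 p.2) (s ×ˢ Icc 0 L) (t, x) (1, 0)) s t := by
  have h1 := hasFDeriv hu (p := (t, x)) ⟨ht, hx⟩
  have h2 : HasDerivWithinAt (fun y : ℝ => ((y, x) : ℝ × ℝ)) (1, 0) s t :=
    (hasDerivWithinAt_id _ _).prodMk (hasDerivWithinAt_const _ _ _)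
  exact h1.comp_hasDerivWithinAt (t := s ×ˢ Icc 0 L) t h2 (fun y hy => ⟨hy, hx⟩)

theorem dx_eq (hL : 0 < L) (hu : Sm s L u) {t x : ℝ} (ht : t ∈ s) (hx : x ∈ Icc 0 L) :
    dx L u t x =
      fderivWithin ℝ (fun p : ℝ × ℝ => u p.1 p.2) (s ×ˢ Icc 0 L) (t, x) (0, 1) :=
  (hasDeriv_x' hu ht hx).derivWithin (uniqueDiffOn_Icc hL x hx)

theorem dt_eq (hs : IsOpen s) (hu : Sm s L u) {t x : ℝ} (ht : t ∈ s) (hx : x ∈ Icc 0 L) :
    dt u t x =
      fderivWithin ℝ (fun p : ℝ × ℝ => u p.1 p.2) (s ×ˢ Icc 0 L) (t, x) (1, 0) :=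
  ((hasDeriv_t' hu ht hx).hasDerivAt (hs.mem_nhds ht)).deriv


theorem hasDeriv_t (hs : IsOpen s) (hu : Sm s L u) {t x : ℝ} (ht : t ∈ s) (hx : x ∈ Icc 0 L) :
    HasDerivAt (fun r => u r x) (dt u t x) t := by
  rw [dt_eq hs hu ht hx]; exact (hasDeriv_t' hu ht hx).hasDerivAt (hs.mem_nhds ht)



/-- to identify derivatives -/
theorem dx_of_hasDeriv (hL : 0 < L) {t x y : ℝ} (hx : x ∈ Icc 0 L)
    (h : HasDerivWithinAt (u t) y (Icc 0 L) x) : dx L u t x = y :=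
  h.derivWithin (uniqueDiffOn_Icc hL x hx)

/-! ### the parametric integral in `x` -/

theorem fam_x : Fam (s ×ˢ Icc 0 L) (fun _ => 0) (fun _ => 1) (fun _ => 0) (fun r => r) where
  hα := continuousOn_const
  hβ := continuousOn_const
  hγ := continuousOn_const
  hδ := continuousOn_id
  β1 := by intro r _; simp
  δ1 := by intro r hr; rw [abs_of_nonneg hr.1]; exact hr.2
  maps := by
    rintro r hr ⟨t, x⟩ ⟨ht, hx⟩
    refine ⟨by simpa using ht, ?_, ?_⟩
    · simp only [zero_add]; exact mul_nonneg hr.1 hx.1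
    · simp only [zero_add]
      calc r * x ≤ 1 * x := mul_le_mul_of_nonneg_right hr.2 hx.1
        _ ≤ L := by rw [one_mul]; exact hx.2

/-- `∫₀¹ w(r) u(t, r x) dr` -/
def Ix (w : ℝ → ℝ) (u : ℝ → ℝ → ℝ) : ℝ → ℝ → ℝ := fun t x => ∫ r in (0 : ℝ)..1, w r * u t (r * x)

theorem Ix_eq_PI (w : ℝ → ℝ) (u : ℝ → ℝ → ℝ) (p : ℝ × ℝ) :
    Ix w u p.1 p.2 = PI (fun _ => 0) (fun _ => 1) (fun _ => 0) (fun r => r) w
      (fun p => u p.1 p.2) p := by
  simp [Ix, PI]

theorem sm_Ix (hs : Convex ℝ s) (hs' : UniqueDiffOn ℝ s) (hL : 0 < L) {w : ℝ → ℝ}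
    (hw : ContinuousOn w (Icc 0 1)) (hu : Sm s L u) : Sm s L (Ix w u) := by
  have h := contDiffOn_PI (convex_prod (L := L) hs) (uniq_prod hs' hL) fam_x
  have h1 : ContDiffOn ℝ (⊤ : ℕ∞) (PI (fun _ => 0) (fun _ => 1) (fun _ => 0) (fun r => r) w
      (fun p : ℝ × ℝ => u p.1 p.2)) (s ×ˢ Icc 0 L) :=
    contDiffOn_infty.2 fun n => h n w _ hw hu
  exact h1.congr fun p _ => Ix_eq_PI w u p

theorem hasFDeriv_Ix (hs : Convex ℝ s) (hs' : UniqueDiffOn ℝ s) (hL : 0 < L) {w : ℝ → ℝ}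
    (hw : ContinuousOn w (Icc 0 1)) (hu : Sm s L u) {p : ℝ × ℝ} (hp : p ∈ s ×ˢ Icc 0 L) :
    HasFDerivWithinAt (fun p : ℝ × ℝ => Ix w u p.1 p.2)
      (Ix w (fun t x => fderivWithin ℝ (fun p : ℝ × ℝ => u p.1 p.2) (s ×ˢ Icc 0 L) (t, x) (1, 0))
          p.1 p.2 • ContinuousLinearMap.fst ℝ ℝ ℝ +
        Ix (fun r => r * w r) (dx L u) p.1 p.2 • ContinuousLinearMap.snd ℝ ℝ ℝ)
      (s ×ˢ Icc 0 L) p := by
  have h := hasFDerivWithinAt_PI (convex_prod (L := L) hs) fam_x hw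
    (G' := fderivWithin ℝ (fun p : ℝ × ℝ => u p.1 p.2) (s ×ˢ Icc 0 L))
    (fun q hq => hasFDeriv hu hq)
    (hu.continuousOn_fderivWithin (uniq_prod hs' hL) (by simp)) hp
  have e : (fun p : ℝ × ℝ => Ix w u p.1 p.2) =
      PI (fun _ => 0) (fun _ => 1) (fun _ => 0) (fun r => r) w (fun p : ℝ × ℝ => u p.1 p.2) := by
    funext p; exact Ix_eq_PI w u p
  rw [e]
  convert h using 3
  · simp [Ix, PI]
  · unfold Ix PI
    refine intervalIntegral.integral_congr fun r hr => ?_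
    rw [uIcc_of_le zero_le_one] at hr
    have := fam_x.maps r hr p hp
    simp only [zero_add, one_mul] at this ⊢
    rw [dx_eq hL hu this.1 this.2]


theorem dt_Ix (hs : Convex ℝ s) (hso : IsOpen s) (hL : 0 < L) {w : ℝ → ℝ}
    (hw : ContinuousOn w (Icc 0 1)) (hu : Sm s L u) {t x : ℝ} (ht : t ∈ s) (hx : x ∈ Icc 0 L) :
    dt (Ix w u) t x = Ix w (dt u) t x := by
  have h := hasFDeriv_Ix hs hso.uniqueDiffOn hL hw hu (p := (t, x)) ⟨ht, hx⟩
  rw [dt_eq hso (sm_Ix hs hso.uniqueDiffOn hL hw hu) ht hx,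
    h.fderivWithin (uniq_prod hso.uniqueDiffOn hL (t, x) ⟨ht, hx⟩)]
  simp only [add_apply, smul_apply,
    ContinuousLinearMap.coe_fst', ContinuousLinearMap.coe_snd', smul_eq_mul, mul_one, mul_zero,
    add_zero]
  unfold Ix
  refine intervalIntegral.integral_congr fun r hr => ?_
  rw [uIcc_of_le zero_le_one] at hr
  have := (fam_x (s := s) (L := L)).maps r hr (t, x) ⟨ht, hx⟩
  simp only [zero_add, one_mul] at this ⊢
  rw [dt_eq hso hu this.1 this.2]

/-! ### primitives in `x` -/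

/-- `∫₀ˣ f = x ∫₀¹ f(r x) dr` -/
theorem integral_scale (f : ℝ → ℝ) (x : ℝ) :
    ∫ ξ in (0 : ℝ)..x, f ξ = x * ∫ r in (0 : ℝ)..1, f (r * x) := by
  have := intervalIntegral.mul_integral_comp_mul_right (f := f) (a := 0) (b := 1) x
  rw [this]; simp

/-- fundamental theorem on `[0,L]`, one-sided at the ends -/
theorem hasDerivWithin_integral {f : ℝ → ℝ} (hf : ContinuousOn f (Icc 0 L)) {x : ℝ}
    (hx : x ∈ Icc 0 L) :
    HasDerivWithinAt (fun y => ∫ ξ in (0 : ℝ)..y, f ξ) (f x) (Icc 0 L) x := by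
  have : Fact (x ∈ Icc 0 L) := ⟨hx⟩
  refine intervalIntegral.integral_hasDerivWithinAt_right ?_ ?_ (hf x hx)
  · apply ContinuousOn.intervalIntegrable
    rw [uIcc_of_le hx.1]
    exact hf.mono (Icc_subset_Icc_right hx.2)
  · exact hf.stronglyMeasurableAtFilter_nhdsWithin measurableSet_Icc x

/-- primitive in `x` -/
def Px (u : ℝ → ℝ → ℝ) : ℝ → ℝ → ℝ := fun t x => ∫ ξ in (0 : ℝ)..x, u t ξ

theorem Px_eq (u : ℝ → ℝ → ℝ) (t x : ℝ) : Px u t x = x * Ix (fun _ => 1) u t x := by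
  rw [Px, integral_scale]; simp [Ix]

theorem sm_Px (hs : Convex ℝ s) (hs' : UniqueDiffOn ℝ s) (hL : 0 < L) (hu : Sm s L u) :
    Sm s L (Px u) := by
  have h1 : Sm s L (Ix (fun _ => 1) u) := sm_Ix hs hs' hL continuousOn_const hu
  have h2 : ContDiffOn ℝ (⊤ : ℕ∞) (fun p : ℝ × ℝ => p.2 * Ix (fun _ => 1) u p.1 p.2)
      (s ×ˢ Icc 0 L) := contDiff_snd.contDiffOn.mul h1
  exact h2.congr fun p _ => Px_eq u p.1 p.2

theorem hasDeriv_Px (hu : Sm s L u) {t x : ℝ} (ht : t ∈ s) (hx : x ∈ Icc 0 L) :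
    HasDerivWithinAt (Px u t) (u t x) (Icc 0 L) x :=
  hasDerivWithin_integral (sm_cont_x hu ht) hx

theorem dx_Px (hL : 0 < L) (hu : Sm s L u) {t x : ℝ} (ht : t ∈ s) (hx : x ∈ Icc 0 L) :
    dx L (Px u) t x = u t x :=
  dx_of_hasDeriv hL hx (hasDeriv_Px hu ht hx)

theorem dt_Px (hs : Convex ℝ s) (hso : IsOpen s) (hL : 0 < L) (hu : Sm s L u) {t x : ℝ}
    (ht : t ∈ s) (hx : x ∈ Icc 0 L) : dt (Px u) t x = Px (dt u) t x := by
  have e : (fun r => Px u r x) = fun r => x * Ix (fun _ => 1) u r x := by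
    funext r; exact Px_eq u r x
  rw [Px_eq (dt u), ← dt_Ix hs hso hL continuousOn_const hu ht hx, dt, e]
  exact ((hasDeriv_t hso (sm_Ix hs hso.uniqueDiffOn hL continuousOn_const hu) ht hx).const_mul
    x).deriv

/-! ### Hadamard division -/







/-! ### `Kint` -/

/-- `∫₀ˣ ξ⁹ F(ξ) dξ`, the derivative of `Kint F` -/
def Kint1 (F : ℝ → ℝ) (x : ℝ) : ℝ := ∫ ξ in (0 : ℝ)..x, ξ ^ 9 * F ξ

theorem Kint_scale (F : ℝ → ℝ) (x : ℝ) :
    Kint F x = x ^ 11 * ∫ r in (0 : ℝ)..1, (1 - r) * r ^ 9 * F (r * x) := by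
  rw [Kint, integral_scale, ← intervalIntegral.integral_const_mul,
    ← intervalIntegral.integral_const_mul]
  refine intervalIntegral.integral_congr fun r _ => ?_
  ring


@[simp] theorem Kint_zero (F : ℝ → ℝ) : Kint F 0 = 0 := by simp [Kint]
@[simp] theorem Kint1_zero (F : ℝ → ℝ) : Kint1 F 0 = 0 := by simp [Kint1]

theorem Kint_congr {F F' : ℝ → ℝ} {x : ℝ} (hx : x ∈ Icc 0 L) (h : ∀ y ∈ Icc 0 L, F y = F' y) :
    Kint F x = Kint F' x := by
  refine intervalIntegral.integral_congr fun r hr => ?_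
  rw [uIcc_of_le hx.1] at hr
  rw [h r ⟨hr.1, hr.2.trans hx.2⟩]


theorem Kint_eq_sub {F : ℝ → ℝ} (hF : ContinuousOn F (Icc 0 L)) {x : ℝ} (hx : x ∈ Icc 0 L) :
    Kint F x = x * Kint1 F x - ∫ ξ in (0 : ℝ)..x, ξ * (ξ ^ 9 * F ξ) := by
  have hsub : Icc 0 x ⊆ Icc 0 L := Icc_subset_Icc_right hx.2
  have h1 : IntervalIntegrable (fun ξ => ξ ^ 9 * F ξ) volume 0 x := by
    apply ContinuousOn.intervalIntegrable
    rw [uIcc_of_le hx.1]
    exact ((continuous_pow 9).continuousOn).mul (hF.mono hsub)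
  have h2 : IntervalIntegrable (fun ξ => ξ * (ξ ^ 9 * F ξ)) volume 0 x := by
    apply ContinuousOn.intervalIntegrable
    rw [uIcc_of_le hx.1]
    exact continuousOn_id.mul (((continuous_pow 9).continuousOn).mul (hF.mono hsub))
  rw [Kint, Kint1, ← intervalIntegral.integral_const_mul,
    ← intervalIntegral.integral_sub (h1.const_mul x) h2]
  refine intervalIntegral.integral_congr fun r _ => ?_
  ring

theorem hasDeriv_Kint1 {F : ℝ → ℝ} (hF : ContinuousOn F (Icc 0 L)) {x : ℝ} (hx : x ∈ Icc 0 L) :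
    HasDerivWithinAt (Kint1 F) (x ^ 9 * F x) (Icc 0 L) x :=
  hasDerivWithin_integral (f := fun ξ => ξ ^ 9 * F ξ) ((continuous_pow 9).continuousOn.mul hF) hx

theorem hasDeriv_Kint {F : ℝ → ℝ} (hF : ContinuousOn F (Icc 0 L)) {x : ℝ} (hx : x ∈ Icc 0 L) :
    HasDerivWithinAt (Kint F) (Kint1 F x) (Icc 0 L) x := by
  have h1 : HasDerivWithinAt (fun x => x * Kint1 F x - ∫ ξ in (0 : ℝ)..x, ξ * (ξ ^ 9 * F ξ))
      (1 * Kint1 F x + x * (x ^ 9 * F x) - x * (x ^ 9 * F x)) (Icc 0 L) x := by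
    refine ((hasDerivWithinAt_id x _).mul (hasDeriv_Kint1 hF hx)).sub ?_
    exact hasDerivWithin_integral (f := fun ξ => ξ * (ξ ^ 9 * F ξ))
      (continuousOn_id.mul ((continuous_pow 9).continuousOn.mul hF)) hx
  have h2 : HasDerivWithinAt (Kint F) (1 * Kint1 F x + x * (x ^ 9 * F x) - x * (x ^ 9 * F x))
      (Icc 0 L) x := h1.congr (fun y hy => Kint_eq_sub hF hy) (Kint_eq_sub hF hx)
  rwa [one_mul, _root_.add_sub_cancel_right] at h2


theorem Kint_eq_Ix (u : ℝ → ℝ → ℝ) (t x : ℝ) :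
    Kint (u t) x = x ^ 11 * Ix (fun r => (1 - r) * r ^ 9) u t x := Kint_scale (u t) x

theorem cont_wK : ContinuousOn (fun r : ℝ => (1 - r) * r ^ 9) (Icc 0 1) := by fun_prop






theorem dt_Kint (hs : Convex ℝ s) (hso : IsOpen s) (hL : 0 < L) (hu : Sm s L u) {t x : ℝ}
    (ht : t ∈ s) (hx : x ∈ Icc 0 L) :
    dt (fun t x => Kint (u t) x) t x = Kint (dt u t) x := by
  have e : (fun r => Kint (u r) x) = fun r => x ^ 11 * Ix (fun r => (1 - r) * r ^ 9) u r x := by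
    funext r; exact Kint_eq_Ix u r x
  rw [Kint_eq_Ix (dt u), ← dt_Ix hs hso hL cont_wK hu ht hx, dt]
  rw [e]
  exact ((hasDeriv_t hso (sm_Ix hs hso.uniqueDiffOn hL cont_wK hu) ht hx).const_mul _).deriv


/-! ### primitives in `t` -/

theorem fam_t {t0 : ℝ} (hs : Convex ℝ s) (h0 : t0 ∈ s) :
    Fam (s ×ˢ Icc 0 L) (fun r => (1 - r) * t0) (fun r => r) (fun _ => 0) (fun _ => 1) where
  hα := by fun_prop
  hβ := continuousOn_id
  hγ := continuousOn_const
  hδ := continuousOn_const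
  β1 := by intro r hr; rw [abs_of_nonneg hr.1]; exact hr.2
  δ1 := by intro r _; simp
  maps := by
    rintro r hr ⟨t, x⟩ ⟨ht, hx⟩
    refine ⟨?_, by simpa using hx⟩
    have := hs h0 ht (sub_nonneg.2 hr.2) hr.1 (by ring)
    simpa using this

/-- `∫_{t0}^t u(τ, x) dτ` -/
def Pt (t0 : ℝ) (u : ℝ → ℝ → ℝ) : ℝ → ℝ → ℝ := fun t x => ∫ τ in t0..t, u τ x

theorem Pt_eq_PI (t0 : ℝ) (u : ℝ → ℝ → ℝ) (p : ℝ × ℝ) :
    Pt t0 u p.1 p.2 = (p.1 - t0) * PI (fun r => (1 - r) * t0) (fun r => r) (fun _ => 0)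
      (fun _ => 1) (fun _ => 1) (fun p => u p.1 p.2) p := by
  have := intervalIntegral.smul_integral_comp_mul_add (a := 0) (b := 1) (fun τ => u τ p.2)
    (p.1 - t0) t0
  rw [Pt, PI]
  simp only [mul_zero, zero_add, mul_one, sub_add_cancel, smul_eq_mul] at this
  rw [← this]
  congr 1
  refine intervalIntegral.integral_congr fun r _ => ?_
  simp only [one_mul, zero_add]
  congr 1
  ring

theorem sm_Pt {t0 : ℝ} (hs : Convex ℝ s) (hs' : UniqueDiffOn ℝ s) (hL : 0 < L) (h0 : t0 ∈ s)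
    (hu : Sm s L u) : Sm s L (Pt t0 u) := by
  have h := contDiffOn_PI (convex_prod (L := L) hs) (uniq_prod hs' hL) (fam_t hs h0)
  have h1 : ContDiffOn ℝ (⊤ : ℕ∞) (PI (fun r => (1 - r) * t0) (fun r => r) (fun _ => 0)
      (fun _ => 1) (fun _ => 1) (fun p : ℝ × ℝ => u p.1 p.2)) (s ×ˢ Icc 0 L) :=
    contDiffOn_infty.2 fun n => h n _ _ continuousOn_const hu
  have h2 : ContDiffOn ℝ (⊤ : ℕ∞) (fun p : ℝ × ℝ => (p.1 - t0) * PI (fun r => (1 - r) * t0)
      (fun r => r) (fun _ => 0) (fun _ => 1) (fun _ => 1) (fun p : ℝ × ℝ => u p.1 p.2) p)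
      (s ×ˢ Icc 0 L) := (contDiff_fst.sub contDiff_const).contDiffOn.mul h1
  exact h2.congr fun p _ => Pt_eq_PI t0 u p

theorem dt_Pt {t0 : ℝ} (hs : Convex ℝ s) (hso : IsOpen s) (h0 : t0 ∈ s)
    (hu : Sm s L u) {t x : ℝ} (ht : t ∈ s) (hx : x ∈ Icc 0 L) : dt (Pt t0 u) t x = u t x := by
  have hc : ContinuousOn (fun τ => u τ x) s := (sm_slice_t hu hx).continuousOn
  have hsub : uIcc t0 t ⊆ s := by
    have := hs.ordConnected.uIcc_subset h0 ht
    exact this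
  refine (intervalIntegral.integral_hasDerivAt_right ?_ ?_ ?_).deriv
  · exact (hc.mono hsub).intervalIntegrable
  · exact hc.stronglyMeasurableAtFilter hso t ht
  · exact hc.continuousAt (hso.mem_nhds ht)


end Crest.Agent.R213.J310
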