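import Crest.Agent.R213.J0bGen

-- ▼ part R213/J0b
section

/-!
# Row 213, J0b: parametric integrals, Hadamard division, `Kint` for the class `Sm` (helper35)
-/

set_option autoImplicit false

open Set MeasureTheory Filter Topology
open scoped ContDiff Interval

noncomputable section

namespace Crest.Agent.R213

namespace J0b

/-! ### one variable slices -/

/-- one-sided/two-sided derivative along a line inside `K` -/
lemma hasDerivWithinAt_slice {E F : Type*} [NormedAddCommGroup E] [NormedSpace ℝ E]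
    [NormedAddCommGroup F] [NormedSpace ℝ F] {K : Set E} {g : E → F} {g' : E →L[ℝ] F} {p v : E}
    {γ : ℝ → E} {S : Set ℝ} {x : ℝ} (hγ : HasDerivWithinAt γ v S x) (hp : γ x = p)
    (hS : MapsTo γ S K) (hg : HasFDerivWithinAt g g' K p) :
    HasDerivWithinAt (fun y => g (γ y)) (g' v) S x := by
  subst hp
  exact hg.comp_hasDerivWithinAt x hγ hS

variable {s : Set ℝ} {L : ℝ} {u : ℝ → ℝ → ℝ}

lemma uniqueDiffOn_strip (hs : IsOpen s) (hL : 0 < L) : UniqueDiffOn ℝ (s ×ˢ Icc 0 L) :=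
  hs.uniqueDiffOn.prod (uniqueDiffOn_Icc hL)

/-- the two partial derivatives of a function on the strip from its Fréchet derivative -/
lemma slices (hs : IsOpen s) (hL : 0 < L) {g : ℝ × ℝ → ℝ} {g' : ℝ × ℝ →L[ℝ] ℝ} {t x : ℝ}
    (ht : t ∈ s) (hx : x ∈ Icc 0 L) (hg : HasFDerivWithinAt g g' (s ×ˢ Icc 0 L) (t, x)) :
    HasDerivWithinAt (fun y => g (t, y)) (g' (0, 1)) (Icc 0 L) x ∧
    HasDerivAt (fun r => g (r, x)) (g' (1, 0)) t := by
  constructor
  · have hm : MapsTo (fun y : ℝ => (t, y)) (Icc 0 L) (s ×ˢ Icc 0 L) := fun y hy => ⟨ht, hy⟩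
    exact hasDerivWithinAt_slice (γ := fun y => (t, y)) (v := (0, 1))
      ((hasDerivWithinAt_const x _ t).prodMk (hasDerivWithinAt_id x _)) rfl hm hg
  · have hm : MapsTo (fun r : ℝ => (r, x)) s (s ×ˢ Icc 0 L) := fun y hy => ⟨hy, hx⟩
    have := hasDerivWithinAt_slice (γ := fun r => (r, x)) (v := (1, 0)) (S := s) (x := t)
      ((hasDerivWithinAt_id t _).prodMk (hasDerivWithinAt_const t _ x)) rfl hm hg
    exact this.hasDerivAt (hs.mem_nhds ht)

lemma dx_of_hasFDeriv (hs : IsOpen s) (hL : 0 < L) {g' : ℝ × ℝ →L[ℝ] ℝ} {t x : ℝ}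
    (ht : t ∈ s) (hx : x ∈ Icc 0 L)
    (hg : HasFDerivWithinAt (fun p : ℝ × ℝ => u p.1 p.2) g' (s ×ˢ Icc 0 L) (t, x)) :
    dx L u t x = g' (0, 1) ∧ dt u t x = g' (1, 0) := by
  obtain ⟨h1, h2⟩ := slices hs hL ht hx hg
  exact ⟨h1.derivWithin (uniqueDiffOn_Icc hL x hx), h2.deriv⟩

end J0b

open J0b

variable {s : Set ℝ} {L a b : ℝ}

/-! ### parametric integrals -/

/-- `H r t x` smooth on `[a,b] × s × [0,L]` -/
def SmP (a b : ℝ) (s : Set ℝ) (L : ℝ) (H : ℝ → ℝ → ℝ → ℝ) : Prop :=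
  ContDiffOn ℝ ∞ (fun q : ℝ × (ℝ × ℝ) => H q.1 q.2.1 q.2.2) (Icc a b ×ˢ (s ×ˢ Icc 0 L))

lemma SmP.mono {H : ℝ → ℝ → ℝ → ℝ} (h : SmP a b s L H) {s' : Set ℝ} (hs : s' ⊆ s) :
    SmP a b s' L H :=
  ContDiffOn.mono h (prod_mono Subset.rfl (prod_mono hs Subset.rfl))

/-- localisation in the time variable -/
lemma Sm.of_local {u : ℝ → ℝ → ℝ}
    (h : ∀ t ∈ s, ∃ δ > 0, Metric.ball t δ ⊆ s ∧ Sm (Metric.ball t δ) L u) : Sm s L u := by
  rintro ⟨t, x⟩ ⟨ht, hx⟩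
  obtain ⟨δ, hδ, hsub, hsm⟩ := h t ht
  have h1 := hsm (t, x) ⟨Metric.mem_ball_self hδ, hx⟩
  refine h1.mono_of_mem_nhdsWithin ?_
  have h2 : (Metric.ball t δ ×ˢ (univ : Set ℝ)) ∈ 𝓝 (t, x) :=
    (Metric.isOpen_ball.prod isOpen_univ).mem_nhds ⟨Metric.mem_ball_self hδ, mem_univ _⟩
  filter_upwards [mem_nhdsWithin_of_mem_nhds h2, self_mem_nhdsWithin] with q h3 h4
  exact ⟨h3.1, h4.2⟩

namespace J0b

lemma pint_ball (hL : 0 < L) (hab : a < b) {t δ : ℝ} {H : ℝ → ℝ → ℝ → ℝ}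
    (hH : SmP a b (Metric.ball t δ) L H) :
    Sm (Metric.ball t δ) L (fun t x => ∫ r in a..b, H r t x) := by
  have hK : Convex ℝ (Metric.ball t δ ×ˢ Icc 0 L) := (convex_ball t δ).prod (convex_Icc 0 L)
  exact contDiffOn_pint hab hK (uniqueDiffOn_strip Metric.isOpen_ball hL) hH

/-- partial derivatives of the integrand -/
lemma SmP_partials (hs : IsOpen s) (hL : 0 < L) {H : ℝ → ℝ → ℝ → ℝ}
    (hH : SmP a b s L H) {r t x : ℝ} (hr : r ∈ Icc a b) (ht : t ∈ s) (hx : x ∈ Icc 0 L) :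
    dx L (H r) t x = pdK a b (s ×ˢ Icc 0 L)
        (fun q : ℝ × (ℝ × ℝ) => H q.1 q.2.1 q.2.2) (r, (t, x)) (0, 1) ∧
    dt (H r) t x = pdK a b (s ×ˢ Icc 0 L)
        (fun q : ℝ × (ℝ × ℝ) => H q.1 q.2.1 q.2.2) (r, (t, x)) (1, 0) := by
  have h1 := hasFDerivWithinAt_pdK (K := s ×ˢ Icc 0 L)
    (H := fun q : ℝ × (ℝ × ℝ) => H q.1 q.2.1 q.2.2) (ContDiffOn.differentiableOn hH (by simp)) hr
    (q := (t, x)) ⟨ht, hx⟩
  exact dx_of_hasFDeriv (u := H r) hs hL ht hx h1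

end J0b

/-- **parametric integrals of smooth functions are smooth** -/
theorem Sm.pint (hs : IsOpen s) (hL : 0 < L) (hab : a < b) {H : ℝ → ℝ → ℝ → ℝ}
    (hH : SmP a b s L H) : Sm s L (fun t x => ∫ r in a..b, H r t x) := by
  refine Sm.of_local fun t ht => ?_
  obtain ⟨δ, hδ, hsub⟩ := Metric.isOpen_iff.1 hs t ht
  exact ⟨δ, hδ, hsub, pint_ball hL hab (hH.mono hsub)⟩

/-- derivatives of parametric integrals -/
theorem pint_deriv (hs : IsOpen s) (hL : 0 < L) (hab : a < b) {H : ℝ → ℝ → ℝ → ℝ}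
    (hH : SmP a b s L H) {t x : ℝ} (ht : t ∈ s) (hx : x ∈ Icc 0 L) :
    dx L (fun t x => ∫ r in a..b, H r t x) t x = ∫ r in a..b, dx L (H r) t x ∧
    dt (fun t x => ∫ r in a..b, H r t x) t x = ∫ r in a..b, dt (H r) t x := by
  obtain ⟨δ, hδ, hsub⟩ := Metric.isOpen_iff.1 hs t ht
  have hH' := hH.mono hsub
  set B := Metric.ball t δ with hB
  have htB : t ∈ B := Metric.mem_ball_self hδ
  have hK : Convex ℝ (B ×ˢ Icc 0 L) := (convex_ball t δ).prod (convex_Icc 0 L)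
  have hU := uniqueDiffOn_strip (s := B) Metric.isOpen_ball hL
  set G : ℝ × (ℝ × ℝ) → ℝ := fun q => H q.1 q.2.1 q.2.2 with hG
  have hG1 : ContDiffOn ℝ ∞ G (Icc a b ×ˢ (B ×ˢ Icc 0 L)) := hH'
  have hG' : ContinuousOn (pdK a b (B ×ˢ Icc 0 L) G) (Icc a b ×ˢ (B ×ˢ Icc 0 L)) :=
    ((hG1.fderivWithin (m := ∞) ((uniqueDiffOn_Icc hab).prod hU) (by simp)).clm_comp
      contDiffOn_const).continuousOn
  have h1 := hasFDerivWithinAt_pint (K := B ×ˢ Icc 0 L) hab.le hK hG1.continuousOn hG'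
    (fun r hr q hq => hasFDerivWithinAt_pdK (hG1.differentiableOn (by simp)) hr hq)
    (p := (t, x)) ⟨htB, hx⟩
  obtain ⟨e1, e2⟩ := dx_of_hasFDeriv (u := fun t x => ∫ r in a..b, H r t x)
    (s := B) Metric.isOpen_ball hL htB hx h1
  have hint := intervalIntegrable_slice hab.le hG' (p := (t, x)) ⟨htB, hx⟩
  rw [e1, e2, ContinuousLinearMap.intervalIntegral_apply hint,
    ContinuousLinearMap.intervalIntegral_apply hint]
  constructor
  · refine intervalIntegral.integral_congr (fun r hr => ?_)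
    rw [uIcc_of_le hab.le] at hr
    exact (SmP_partials Metric.isOpen_ball hL hH' hr htB hx).1.symm
  · refine intervalIntegral.integral_congr (fun r hr => ?_)
    rw [uIcc_of_le hab.le] at hr
    exact (SmP_partials Metric.isOpen_ball hL hH' hr htB hx).2.symm

end Crest.Agent.R213
end
end

-- ▼ part R213/J0bH
section

/-!
# Row 213, J0b: scaled integrals, Hadamard division for the class `Sm` (helper35)
-/

set_option autoImplicit false
set_option linter.unusedVariables false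

open Set MeasureTheory Filter Topology
open scoped ContDiff Interval

noncomputable section

namespace Crest.Agent.R213

variable {s s' : Set ℝ} {L L' a b : ℝ} {u v : ℝ → ℝ → ℝ}

namespace J0b

/-! ### `dx`, `dt` of a smooth function are smooth -/

lemma hasFDeriv_of_sm (hu : Sm s L u) {t x : ℝ} (ht : t ∈ s) (hx : x ∈ Icc 0 L) :
    HasFDerivWithinAt (fun p : ℝ × ℝ => u p.1 p.2)
      (fderivWithin ℝ (fun p : ℝ × ℝ => u p.1 p.2) (s ×ˢ Icc 0 L) (t, x)) (s ×ˢ Icc 0 L) (t, x) :=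
  ((ContDiffOn.differentiableOn hu (by simp)) (t, x) ⟨ht, hx⟩).hasFDerivWithinAt



lemma hasDerivWithinAt_dx (hs : IsOpen s) (hL : 0 < L) (hu : Sm s L u) {t x : ℝ} (ht : t ∈ s)
    (hx : x ∈ Icc 0 L) : HasDerivWithinAt (fun y => u t y) (dx L u t x) (Icc 0 L) x := by
  have h := hasFDeriv_of_sm hu ht hx
  rw [(dx_of_hasFDeriv hs hL ht hx h).1]
  exact (slices hs hL ht hx h).1




end J0b

open J0b

/-! ### composition -/

lemma SmP.of_comp (hu : Sm s' L' u) {φ ψ : ℝ → ℝ → ℝ → ℝ} (hφ : SmP a b s L φ)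
    (hψ : SmP a b s L ψ)
    (hm : ∀ r ∈ Icc a b, ∀ t ∈ s, ∀ x ∈ Icc 0 L, φ r t x ∈ s' ∧ ψ r t x ∈ Icc 0 L') :
    SmP a b s L (fun r t x => u (φ r t x) (ψ r t x)) := by
  have h := ContDiffOn.comp (g := fun p : ℝ × ℝ => u p.1 p.2)
    (f := fun q : ℝ × (ℝ × ℝ) => (φ q.1 q.2.1 q.2.2, ψ q.1 q.2.1 q.2.2)) hu (hφ.prodMk hψ)
    (t := s' ×ˢ Icc 0 L') (fun q hq => hm q.1 hq.1 q.2.1 hq.2.1 q.2.2 hq.2.2)
  exact h

/-- a polynomial expression in `r t x` (any globally smooth function) -/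
lemma SmP.of_contDiff {H : ℝ → ℝ → ℝ → ℝ}
    (h : ContDiff ℝ ∞ (fun q : ℝ × (ℝ × ℝ) => H q.1 q.2.1 q.2.2)) : SmP a b s L H :=
  h.contDiffOn

lemma SmP.mul {H G : ℝ → ℝ → ℝ → ℝ} (hH : SmP a b s L H) (hG : SmP a b s L G) :
    SmP a b s L (fun r t x => H r t x * G r t x) := ContDiffOn.mul hH hG

lemma SmP.add {H G : ℝ → ℝ → ℝ → ℝ} (hH : SmP a b s L H) (hG : SmP a b s L G) :
    SmP a b s L (fun r t x => H r t x + G r t x) := ContDiffOn.add hH hG

lemma scale_mem {r x : ℝ} (hr : r ∈ Icc (0:ℝ) 1) (hx : x ∈ Icc 0 L) : r * x ∈ Icc 0 L :=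
  ⟨mul_nonneg hr.1 hx.1, by nlinarith [hr.1, hr.2, hx.1, hx.2]⟩


/-- `u t (r x)` -/
lemma Sm.scaleP (hu : Sm s L u) : SmP 0 1 s L (fun r t x => u t (r * x)) :=
  SmP.of_comp hu (SmP.of_contDiff (by fun_prop)) (SmP.of_contDiff (by fun_prop))
    (fun r hr t ht x hx => ⟨ht, scale_mem hr hx⟩)


/-- chain rule for the scaling -/
lemma dx_scale (hs : IsOpen s) (hL : 0 < L) (hu : Sm s L u) {r t x : ℝ} (hr : r ∈ Icc (0:ℝ) 1)
    (ht : t ∈ s) (hx : x ∈ Icc 0 L) :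
    dx L (fun t x => u t (r * x)) t x = r * dx L u t (r * x) := by
  have h1 := hasDerivWithinAt_dx hs hL hu ht (scale_mem hr hx)
  have h2 : HasDerivWithinAt (fun y : ℝ => r * y) r (Icc 0 L) x := by
    simpa using (hasDerivWithinAt_id x (Icc 0 L)).const_mul r
  have h3 := HasDerivWithinAt.scomp x h1 h2 (fun y hy => scale_mem hr hy)
  have h4 := h3.derivWithin (uniqueDiffOn_Icc hL x hx)
  simpa [dx, Function.comp_def] using h4


/-! ### `∫₀¹ w(r) u(t, r x) dr` -/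

/-- `∫₀¹ w(r) u(t, r x) dr` -/
def pintx (w : ℝ → ℝ) (u : ℝ → ℝ → ℝ) : ℝ → ℝ → ℝ := fun t x => ∫ r in (0:ℝ)..1, w r * u t (r * x)

theorem Sm.pintx (hs : IsOpen s) (hL : 0 < L) {w : ℝ → ℝ} (hw : ContDiff ℝ ∞ w) (hu : Sm s L u) :
    Sm s L (pintx w u) := by
  have h : SmP 0 1 s L (fun r t x => w r * u t (r * x)) :=
    SmP.mul (SmP.of_contDiff (by fun_prop)) hu.scaleP
  exact Sm.pint hs hL one_pos h

theorem pintx_deriv (hs : IsOpen s) (hL : 0 < L) {w : ℝ → ℝ} (hw : ContDiff ℝ ∞ w)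
    (hu : Sm s L u) {t x : ℝ} (ht : t ∈ s) (hx : x ∈ Icc 0 L) :
    dx L (R213.pintx w u) t x = R213.pintx (fun r => w r * r) (dx L u) t x ∧
    dt (R213.pintx w u) t x = R213.pintx w (dt u) t x := by
  have h : SmP 0 1 s L (fun r t x => w r * u t (r * x)) :=
    SmP.mul (SmP.of_contDiff (by fun_prop)) hu.scaleP
  obtain ⟨h1, h2⟩ := pint_deriv hs hL one_pos h ht hx
  constructor
  · refine h1.trans (intervalIntegral.integral_congr (fun r hr => ?_))
    rw [uIcc_of_le zero_le_one] at hr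
    show dx L (fun t x => w r * u t (r * x)) t x = w r * r * dx L u t (r * x)
    have e := dx_scale hs hL hu hr ht hx
    unfold dx at e ⊢
    rw [derivWithin_const_mul_field, e]
    ring
  · refine h2.trans (intervalIntegral.integral_congr (fun r hr => ?_))
    show dt (fun t x => w r * u t (r * x)) t x = w r * dt u t (r * x)
    unfold dt
    rw [deriv_const_mul_field]

/-! ### Hadamard division -/










end Crest.Agent.R213
end
end

-- ▼ part R213/J0bK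

/-!
# Row 213, J0b: the operator `Kint` (helper35)
-/

set_option autoImplicit false
set_option linter.unusedVariables false

open Set MeasureTheory Filter Topology
open scoped ContDiff Interval

noncomputable section

namespace Crest.Agent.R213

open J0b

variable {s : Set ℝ} {L : ℝ} {u v : ℝ → ℝ → ℝ} {F G : ℝ → ℝ}

/-- `∫₀¹ (1-r) r⁹ F(r x) dr` : `Kint F x = x¹¹ * Kq F x` -/
def Kq (F : ℝ → ℝ) (x : ℝ) : ℝ := ∫ r in (0 : ℝ)..1, (1 - r) * r ^ 9 * F (r * x)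

/-- `∫₀¹ r⁹ F(r x) dr` : `∫₀ˣ ξ⁹ F = x¹⁰ * Kq1 F x` -/
def Kq1 (F : ℝ → ℝ) (x : ℝ) : ℝ := ∫ r in (0 : ℝ)..1, r ^ 9 * F (r * x)

/-- `∫₀ˣ ξ⁹ F(ξ) dξ` -/
def K1 (F : ℝ → ℝ) (x : ℝ) : ℝ := ∫ ξ in (0 : ℝ)..x, ξ ^ 9 * F ξ

theorem Kint_eq (F : ℝ → ℝ) (x : ℝ) : Kint F x = x ^ 11 * Kq F x := by
  have h := intervalIntegral.mul_integral_comp_mul_right (a := 0) (b := 1)
    (f := fun ξ => (x - ξ) * ξ ^ 9 * F ξ) x
  rw [zero_mul, one_mul] at h
  unfold Kint Kq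
  rw [← h, ← intervalIntegral.integral_const_mul, ← intervalIntegral.integral_const_mul]
  refine intervalIntegral.integral_congr (fun r _ => ?_)
  ring

theorem K1_eq (F : ℝ → ℝ) (x : ℝ) : K1 F x = x ^ 10 * Kq1 F x := by
  have h := intervalIntegral.mul_integral_comp_mul_right (a := 0) (b := 1)
    (f := fun ξ => ξ ^ 9 * F ξ) x
  rw [zero_mul, one_mul] at h
  unfold K1 Kq1
  rw [← h, ← intervalIntegral.integral_const_mul, ← intervalIntegral.integral_const_mul]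
  refine intervalIntegral.integral_congr (fun r _ => ?_)
  ring

@[simp] lemma Kint_zero_right (F : ℝ → ℝ) : Kint F 0 = 0 := by simp [Kint]
@[simp] lemma K1_zero_right (F : ℝ → ℝ) : K1 F 0 = 0 := by simp [K1]

theorem Sm.Kq (hs : IsOpen s) (hL : 0 < L) (hu : Sm s L u) : Sm s L (fun t x => Kq (u t) x) :=
  Sm.pintx hs hL (w := fun r => (1 - r) * r ^ 9) (by fun_prop) hu

theorem Sm.Kq1 (hs : IsOpen s) (hL : 0 < L) (hu : Sm s L u) : Sm s L (fun t x => Kq1 (u t) x) :=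
  Sm.pintx hs hL (w := fun r => r ^ 9) (by fun_prop) hu

theorem Sm.Kint (hs : IsOpen s) (hL : 0 < L) (hu : Sm s L u) :
    Sm s L (fun t x => Kint (u t) x) := by
  have h1 : ContDiffOn ℝ ∞ (fun p : ℝ × ℝ => p.2 ^ 11 * R213.Kq (u p.1) p.2) (s ×ˢ Icc 0 L) :=
    ContDiffOn.mul (by fun_prop) (hu.Kq hs hL)
  exact h1.congr (fun p _ => Kint_eq _ _)

theorem Sm.K1 (hs : IsOpen s) (hL : 0 < L) (hu : Sm s L u) :
    Sm s L (fun t x => K1 (u t) x) := by
  have h1 : ContDiffOn ℝ ∞ (fun p : ℝ × ℝ => p.2 ^ 10 * R213.Kq1 (u p.1) p.2) (s ×ˢ Icc 0 L) :=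
    ContDiffOn.mul (by fun_prop) (hu.Kq1 hs hL)
  exact h1.congr (fun p _ => K1_eq _ _)

/-! ### one variable calculus -/

/-- fundamental theorem of calculus on `[0,L]`, one-sided at the ends -/
lemma ftc_Icc (hF : ContinuousOn F (Icc 0 L)) {x : ℝ} (hx : x ∈ Icc 0 L) :
    HasDerivWithinAt (fun y => ∫ ξ in (0:ℝ)..y, F ξ) (F x) (Icc 0 L) x := by
  have : Fact (x ∈ Icc 0 L) := ⟨hx⟩
  refine intervalIntegral.integral_hasDerivWithinAt_right ?_ ?_ (hF x hx)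
  · exact (hF.mono (Icc_subset_Icc le_rfl hx.2)).intervalIntegrable_of_Icc hx.1
  · exact hF.stronglyMeasurableAtFilter_nhdsWithin measurableSet_Icc x

lemma K1_hasDeriv (hF : ContinuousOn F (Icc 0 L)) {x : ℝ} (hx : x ∈ Icc 0 L) :
    HasDerivWithinAt (K1 F) (x ^ 9 * F x) (Icc 0 L) x :=
  ftc_Icc (F := fun ξ => ξ ^ 9 * F ξ) (by fun_prop) hx

lemma Kint_split (hF : ContinuousOn F (Icc 0 L)) {x : ℝ} (hx : x ∈ Icc 0 L) :
    Kint F x = x * K1 F x - ∫ ξ in (0:ℝ)..x, ξ ^ 10 * F ξ := by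
  have hF' : ContinuousOn F (Icc 0 x) := hF.mono (Icc_subset_Icc le_rfl hx.2)
  have i1 : IntervalIntegrable (fun ξ => x * (ξ ^ 9 * F ξ)) volume 0 x :=
    ContinuousOn.intervalIntegrable_of_Icc hx.1 (by fun_prop)
  have i2 : IntervalIntegrable (fun ξ => ξ ^ 10 * F ξ) volume 0 x :=
    ContinuousOn.intervalIntegrable_of_Icc hx.1 (by fun_prop)
  unfold Kint K1
  rw [← intervalIntegral.integral_const_mul, ← intervalIntegral.integral_sub i1 i2]
  refine intervalIntegral.integral_congr (fun r _ => ?_)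
  ring

lemma Kint_hasDeriv (hF : ContinuousOn F (Icc 0 L)) {x : ℝ} (hx : x ∈ Icc 0 L) :
    HasDerivWithinAt (Kint F) (K1 F x) (Icc 0 L) x := by
  have h1 : HasDerivWithinAt (fun y => y * K1 F y - ∫ ξ in (0:ℝ)..y, ξ ^ 10 * F ξ)
      (K1 F x) (Icc 0 L) x := by
    have h2 := ((hasDerivWithinAt_id x (Icc 0 L)).mul (K1_hasDeriv hF hx)).sub
      (ftc_Icc (F := fun ξ => ξ ^ 10 * F ξ) (by fun_prop) hx)
    refine h2.congr_deriv ?_
    simp only [id]
    ring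
  exact h1.congr (fun y hy => Kint_split hF hy) (Kint_split hF hx)


/-- characterisation of `Kint` by its second derivative -/
theorem eq_Kint_of_deriv (hL : 0 < L) (hF : ContinuousOn F (Icc 0 L)) {P P' : ℝ → ℝ}
    (h0 : P 0 = 0) (h0' : P' 0 = 0)
    (h1 : ∀ x ∈ Icc 0 L, HasDerivWithinAt P (P' x) (Icc 0 L) x)
    (h2 : ∀ x ∈ Icc 0 L, HasDerivWithinAt P' (x ^ 9 * F x) (Icc 0 L) x) :
    ∀ x ∈ Icc 0 L, P x = Kint F x := by
  have key : ∀ (A B : ℝ → ℝ) (C : ℝ → ℝ), A 0 = B 0 →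
      (∀ x ∈ Icc 0 L, HasDerivWithinAt A (C x) (Icc 0 L) x) →
      (∀ x ∈ Icc 0 L, HasDerivWithinAt B (C x) (Icc 0 L) x) → ∀ x ∈ Icc 0 L, A x = B x := by
    intro A B C hAB hA hB x hx
    have hd : ∀ y ∈ Icc 0 L, HasDerivWithinAt (fun z => A z - B z) 0 (Icc 0 L) y := by
      intro y hy
      simpa using (hA y hy).fun_sub (hB y hy)
    have := (convex_Icc 0 L).norm_image_sub_le_of_norm_hasDerivWithin_le (C := 0)
      (f := fun z => A z - B z) (fun y hy => hd y hy) (fun y _ => by simp)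
      (left_mem_Icc.2 hL.le) hx
    simp only [zero_mul, norm_le_zero_iff] at this
    linarith
  have e1 := key P' (K1 F) (fun x => x ^ 9 * F x) (by rw [h0']; simp) h2
    (fun x hx => K1_hasDeriv hF hx)
  exact key P (Kint F) (K1 F) (by rw [h0]; simp)
    (fun x hx => (h1 x hx).congr_deriv (e1 x hx)) (fun x hx => Kint_hasDeriv hF hx)

/-! ### `Kint` and the derivatives `dx`, `dt` -/




theorem dt_Kint (hs : IsOpen s) (hL : 0 < L) (hu : Sm s L u) {t x : ℝ} (ht : t ∈ s)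
    (hx : x ∈ Icc 0 L) : dt (fun t x => Kint (u t) x) t x = Kint (dt u t) x := by
  have h1 := (pintx_deriv hs hL (w := fun r => (1 - r) * r ^ 9) (by fun_prop) hu ht hx).2
  have e : (fun t x => Kint (u t) x) = fun t x => x ^ 11 * pintx (fun r => (1 - r) * r ^ 9) u t x := by
    funext t x; exact Kint_eq _ _
  rw [e]
  unfold dt at h1 ⊢
  rw [deriv_const_mul_field, h1, Kint_eq]
  rfl

/-! ### algebra -/

lemma Kint_add (hF : ContinuousOn F (Icc 0 L)) (hG : ContinuousOn G (Icc 0 L)) {x : ℝ}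
    (hx : x ∈ Icc 0 L) : Kint (fun ξ => F ξ + G ξ) x = Kint F x + Kint G x := by
  have hF' : ContinuousOn F (Icc 0 x) := hF.mono (Icc_subset_Icc le_rfl hx.2)
  have hG' : ContinuousOn G (Icc 0 x) := hG.mono (Icc_subset_Icc le_rfl hx.2)
  unfold Kint
  rw [← intervalIntegral.integral_add (ContinuousOn.intervalIntegrable_of_Icc hx.1 (by fun_prop))
    (ContinuousOn.intervalIntegrable_of_Icc hx.1 (by fun_prop))]
  refine intervalIntegral.integral_congr (fun r _ => ?_)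
  simp only
  ring



lemma Kint_congr {x : ℝ} (hx : x ∈ Icc 0 L) (h : ∀ y ∈ Icc 0 L, F y = G y) :
    Kint F x = Kint G x := by
  unfold Kint
  refine intervalIntegral.integral_congr (fun r hr => ?_)
  rw [uIcc_of_le hx.1] at hr
  simp only [h r ⟨hr.1, hr.2.trans hx.2⟩]


end Crest.Agent.R213
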